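import Vale.Agent.Lib.P322Low.Final

open Finset BigOperators

namespace Vale.Agent.Results.P322.LowNoise

open Vale.Agent.Lib.P322 Vale.Agent.Lib.P322Low

/-- Binary Pinsker inequality in nats. -/
lemma Hb_le_sub {p : ℝ} (h0 : 0 ≤ p) (h1 : p ≤ 1) : Hb p ≤ Real.log 2 - 2 * (p - 1 / 2) ^ 2 := by
  have hhalf : Hb (1 / 2) = Real.log 2 := by
    unfold Hb
    have e : (1 : ℝ) - 1 / 2 = 1 / 2 := by norm_num
    rw [e, one_div, Real.log_inv]
    ring
  rcases h0.eq_or_lt with rfl | h0'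
  · have : Hb 0 = 0 := by
      unfold Hb
      simp
    rw [this]
    have : (1.6 : ℝ) / 3 < Real.log 2 := by
      have := Real.log_two_gt_d9
      norm_num at this ⊢
      linarith
    norm_num
    linarith
  rcases h1.eq_or_lt with rfl | h1'
  · have : Hb 1 = 0 := by
      unfold Hb
      simp
    rw [this]
    have : (1.6 : ℝ) / 3 < Real.log 2 := by
      have := Real.log_two_gt_d9
      norm_num at this ⊢
      linarith
    norm_num
    linarith
  have h := J_ge h0' h1' (by linarith : 0 < 1 - p) (by linarith : 1 - p < 1)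
  have e1 : (p + (1 - p)) / 2 = 1 / 2 := by ring
  rw [e1, hhalf, Hb_symm p] at h
  have e2 : (p - (1 - p)) ^ 2 / (8 * (1 / 2) * (1 - 1 / 2)) = 2 * (p - 1 / 2) ^ 2 := by
    ring
  rw [e2] at h
  linarith

/-- A crude bound for the entropy at small noise. -/
lemma Hb_le_quarter {e : ℝ} (h0 : 0 < e) (h1 : e < 1 / 100) : Hb e ≤ 1 / 4 := by
  refine (Hb_le_small (by linarith) h0).trans ?_
  set s : ℝ := Real.sqrt e with hs
  have hs0 : 0 < s := Real.sqrt_pos.mpr h0
  have hs2 : s ^ 2 = e := Real.sq_sqrt h0.le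
  have hs1 : s < 1 / 10 := by
    by_contra hc
    rw [not_lt] at hc
    nlinarith
  have hlog : Real.log (1 / e) ≤ 2 * (1 / s - 1) := by
    have e1 : 1 / e = (1 / s) ^ 2 := by
      rw [← hs2]
      field_simp
    rw [e1, Real.log_pow]
    have := Real.log_le_sub_one_of_pos (by positivity : 0 < 1 / s)
    push_cast
    linarith
  have h2 : e * (1 + Real.log (1 / e)) ≤ e * (1 + 2 * (1 / s - 1)) :=
    mul_le_mul_of_nonneg_left (by linarith) h0.le
  have h3 : e * (1 + 2 * (1 / s - 1)) = 2 * s - s ^ 2 := by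
    rw [← hs2]
    field_simp
    ring
  nlinarith

lemma h2_half : h2 (1 / 2) = 1 := by
  have hlog2 : 0 < Real.log 2 := Real.log_pos (by norm_num)
  have h := Hb_eq_h2 (1 / 2)
  have hhalf : Hb (1 / 2) = Real.log 2 := by
    unfold Hb
    have e : (1 : ℝ) - 1 / 2 = 1 / 2 := by norm_num
    rw [e, one_div, Real.log_inv]
    ring
  rw [hhalf] at h
  have : (h2 (1 / 2) - 1) * Real.log 2 = 0 := by linarith
  rcases mul_eq_zero.mp this with h3 | h3
  · linarith
  · exact absurd h3 hlog2.ne'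

/-- Part of the low-noise theorem at a given `η`. -/
theorem part_one (η : ℝ) (hη : 0 < η) : ∃ ε₀ : ℝ, 0 < ε₀ ∧
    ∀ (n : ℕ) (f : (Fin n → Bool) → Bool) (ε : ℝ), 0 < ε → ε < ε₀ →
      mutualInfo (jointFull f ε) ≤ h2 (pOne f) - (4 * pOne f * (1 - pOne f) - η) * h2 ε ∧
      (pOne f = 1 / 2 → mutualInfo (jointFull f ε) ≤ 1 - (1 - η) * h2 ε) ∧
      (η * h2 ε ≤ (pOne f - 1 / 2) ^ 2 → mutualInfo (jointFull f ε) ≤ 1 - h2 ε) := by
  obtain ⟨ε₀, h0, hmain⟩ := asymptotic η hη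
  refine ⟨min ε₀ (1 / 100), lt_min h0 (by norm_num), ?_⟩
  intro n f ε he heps
  have he0 : ε < ε₀ := lt_of_lt_of_le heps (min_le_left _ _)
  have he1 : ε < 1 / 100 := lt_of_lt_of_le heps (min_le_right _ _)
  have hm := hmain n f ε he he0
  refine ⟨hm, ?_, ?_⟩
  · intro hp
    rw [hp, h2_half] at hm
    have e : 4 * (1 / 2 : ℝ) * (1 - 1 / 2) - η = 1 - η := by ring
    rw [e] at hm
    exact hm
  · intro ht
    have hlog2 : 0 < Real.log 2 := Real.log_pos (by norm_num)
    have hlog2le : Real.log 2 ≤ 1 := by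
      have := Real.log_two_lt_d9
      linarith
    have hp := pOne_mem f
    have hPin := Hb_le_sub hp.1 hp.2
    have hHb0 : 0 ≤ Hb ε := Hb_nonneg he.le (by linarith)
    have hHb4 := Hb_le_quarter he he1
    have h2e : Hb ε = h2 ε * Real.log 2 := Hb_eq_h2 ε
    have h2pe : Hb (pOne f) = h2 (pOne f) * Real.log 2 := Hb_eq_h2 (pOne f)
    have h20 : 0 ≤ h2 ε := by
      by_contra hc
      rw [not_le] at hc
      have : h2 ε * Real.log 2 < 0 := mul_neg_of_neg_of_pos hc hlog2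
      linarith
    -- the bound in nats
    set t : ℝ := pOne f - 1 / 2 with ht_def
    have hv : 4 * pOne f * (1 - pOne f) = 1 - 4 * t ^ 2 := by
      rw [ht_def]
      ring
    rw [hv] at hm
    have hη1 : η * Hb ε ≤ t ^ 2 := by
      have e1 : η * Hb ε = (η * h2 ε) * Real.log 2 := by
        rw [h2e]
        ring
      rw [e1]
      have e2 : (η * h2 ε) * Real.log 2 ≤ (η * h2 ε) * 1 :=
        mul_le_mul_of_nonneg_left hlog2le (by positivity)
      linarith
    have ht1 : Hb ε * (4 * t ^ 2) ≤ t ^ 2 := by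
      have := mul_le_mul_of_nonneg_right hHb4 (by positivity : 0 ≤ 4 * t ^ 2)
      linarith
    have hkey : (h2 (pOne f) - (1 - 4 * t ^ 2 - η) * h2 ε) * Real.log 2
        ≤ (1 - h2 ε) * Real.log 2 := by
      have e1 : (h2 (pOne f) - (1 - 4 * t ^ 2 - η) * h2 ε) * Real.log 2
          = Hb (pOne f) - (1 - 4 * t ^ 2 - η) * Hb ε := by
        rw [h2e, h2pe]
        ring
      have e2 : (1 - h2 ε) * Real.log 2 = Real.log 2 - Hb ε := by
        rw [h2e]
        ring
      rw [e1, e2]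
      nlinarith
    exact hm.trans (le_of_mul_le_mul_right hkey hlog2)

/-- Low-noise theorem for the Courtade-Kumar problem. For each `η > 0` there is `ε₀ > 0`, uniform
in `n` and `f`, such that for `0 < ε < ε₀`: the general bound `I ≤ h2 p - (4 p (1 - p) - η) h2 ε`;
for balanced `f`, `I ≤ 1 - (1 - η) h2 ε`; and the Courtade-Kumar inequality `I ≤ 1 - h2 ε` itself
for all `f` with `(p - 1/2)^2 ≥ η h2 ε`. Moreover, for every nonconstant `f` and `0 < ε < 1/2`,
the conditional entropy `Δ = (h2 p - I) log 2` of `f(X)` given `Y`, in nats, is positive and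
satisfies `2 ε (2 p (1-p) log(1/(2 e Δ)) - 4 (log 2) h2 p) ≤ Δ`. -/
theorem result :
    (∀ η : ℝ, 0 < η → ∃ ε₀ : ℝ, 0 < ε₀ ∧
      ∀ (n : ℕ) (f : (Fin n → Bool) → Bool) (ε : ℝ), 0 < ε → ε < ε₀ →
        mutualInfo (jointFull f ε) ≤ h2 (pOne f) - (4 * pOne f * (1 - pOne f) - η) * h2 ε ∧
        (pOne f = 1 / 2 → mutualInfo (jointFull f ε) ≤ 1 - (1 - η) * h2 ε) ∧
        (η * h2 ε ≤ (pOne f - 1 / 2) ^ 2 → mutualInfo (jointFull f ε) ≤ 1 - h2 ε)) ∧
    (∀ (n : ℕ) (f : (Fin n → Bool) → Bool) (ε : ℝ), 0 < ε → ε < 1 / 2 →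
      (∃ x, f x = true) → (∃ x, f x = false) →
      0 < (h2 (pOne f) - mutualInfo (jointFull f ε)) * Real.log 2 ∧
      2 * ε * (2 * pOne f * (1 - pOne f) *
          Real.log (1 / (2 * Real.exp 1 * ((h2 (pOne f) - mutualInfo (jointFull f ε)) * Real.log 2)))
        - 4 * (Real.log 2 * h2 (pOne f)))
        ≤ (h2 (pOne f) - mutualInfo (jointFull f ε)) * Real.log 2) := by
  refine ⟨part_one, ?_⟩
  intro n f ε he he0 ht hf
  obtain ⟨hb, hw⟩ := omega_bound_of (fun u h0 h1 => Hb_pos h0 h1)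
    (fun u v hu hu1 hv hv1 => cc_nonneg hu hu1 hv hv1) (fun g hg => fi g hg) f he he0 ht hf
  have hm := mi_eq f he.le he0.le
  have e1 := Hb_eq_h2 (pOne f)
  have hΔ : (h2 (pOne f) - mutualInfo (jointFull f ε)) * Real.log 2 = omega f ε := by
    rw [sub_mul, ← e1]
    linarith
  rw [hΔ]
  refine ⟨hw, ?_⟩
  unfold Psi at hb
  rw [e1] at hb
  have e2 : 4 * (Real.log 2 * h2 (pOne f)) = 4 * (h2 (pOne f) * Real.log 2) := by ring
  rw [e2]
  exact hb

end Vale.Agent.Results.P322.LowNoise
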