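import Vale.Agent.Lib.P322Low.Block2
import Vale.Agent.Results.P322.LowNoise

open Finset BigOperators

namespace Vale.Agent.Results.P322.CrossingCK

open Vale.Agent.Lib.P322 Vale.Agent.Lib.P322Low

lemma Hb_small (δ : ℝ) (hδ : 0 < δ) : ∃ e3 : ℝ, 0 < e3 ∧ ∀ ε : ℝ, 0 < ε → ε < e3 → Hb ε ≤ δ := by
  have hc : Continuous Hb := by
    unfold Hb
    exact (Real.continuous_mul_log.neg).sub
      (Real.continuous_mul_log.comp (continuous_const.sub continuous_id))
  have h0 : Hb 0 = 0 := by
    unfold Hb
    simp
  have ht := hc.tendsto 0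
  rw [h0] at ht
  have hev := (tendsto_order.1 ht).2 δ hδ
  obtain ⟨e3, he3, h⟩ := Metric.eventually_nhds_iff.1 hev
  refine ⟨e3, he3, fun ε h1 h2 => ?_⟩
  have : dist ε 0 < e3 := by
    rw [Real.dist_eq, sub_zero, abs_of_pos h1]
    exact h2
  exact (h this).le

/-- Exact Courtade-Kumar at low noise, uniformly in the dimension, for every Boolean `f` whose
crossing Fourier weight across some splitting `e` of the coordinates is at least `M`. -/
theorem result (M : ℝ) (hM : 0 < M) : ∃ ε₀ : ℝ, 0 < ε₀ ∧
    ∀ (m l n : ℕ) (e : Fin m ⊕ Fin l ≃ Fin n) (f : (Fin n → Bool) → Bool) (ε : ℝ),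
      0 < ε → ε < ε₀ → M ≤ blCross e f → mutualInfo (jointFull f ε) ≤ 1 - h2 ε := by
  obtain ⟨e1, he1, he1', hr⟩ := mg_real (4 * M) (by positivity)
  obtain ⟨e2, he2, hp⟩ := Vale.Agent.Results.P322.LowNoise.part_one (M / 4) (by positivity)
  obtain ⟨e3, he3, hsm⟩ := Hb_small (Real.exp (-(7 / M))) (Real.exp_pos _)
  refine ⟨min e1 (min e2 e3), lt_min he1 (lt_min he2 he3), ?_⟩
  intro m l n e f ε he heps hMf
  have he1l : ε < e1 := lt_of_lt_of_le heps (min_le_left _ _)
  have he2l : ε < e2 := lt_of_lt_of_le (lt_of_lt_of_le heps (min_le_right _ _)) (min_le_left _ _)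
  have he3l : ε < e3 := lt_of_lt_of_le (lt_of_lt_of_le heps (min_le_right _ _)) (min_le_right _ _)
  have hε14 : ε < 1 / 4 := lt_of_lt_of_le he1l he1'
  have hε12 : ε < 1 / 2 := by linarith
  have hlog2 : 0 < Real.log 2 := Real.log_pos (by norm_num)
  have hh2e : h2 ε * Real.log 2 = Hb ε := (Hb_eq_h2 ε).symm
  have hHe0 : 0 ≤ Hb ε := Hb_nonneg he.le (by linarith)
  have hh20 : 0 ≤ h2 ε := by
    by_contra hc
    rw [not_le] at hc
    have : h2 ε * Real.log 2 < 0 := mul_neg_of_neg_of_pos hc hlog2
    linarith
  have hh21 : h2 ε ≤ 1 := by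
    have h := Vale.Agent.Results.P322.LowNoise.Hb_le_sub he.le (by linarith)
    have : h2 ε * Real.log 2 ≤ 1 * Real.log 2 := by
      rw [hh2e]
      nlinarith [sq_nonneg (ε - 1 / 2)]
    exact le_of_mul_le_mul_right this hlog2
  by_cases hwin : M / 4 < (pOne f - 1 / 2) ^ 2
  · refine ((hp _ f ε he he2l).2.2 ?_)
    have : M / 4 * h2 ε ≤ M / 4 * 1 :=
      mul_le_mul_of_nonneg_left hh21 (by positivity)
    linarith
  rw [not_lt] at hwin
  -- nonconstancy
  have ht : ∃ x, f x = true := by
    by_contra hc
    push Not at hc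
    have h0 : ∀ x, ind f true x = 0 := by
      intro x
      have : f x = false := by simpa using hc x
      simp [ind, this]
    have := blCross_const e f 0 (by norm_num) h0
    linarith
  have hf0 : ∃ x, f x = false := by
    by_contra hc
    push Not at hc
    have h0 : ∀ x, ind f true x = 1 := by
      intro x
      have : f x = true := by simpa using hc x
      simp [ind, this]
    have := blCross_const e f 1 (by norm_num) h0
    linarith
  have hpp := pOne_mem f
  have ha0 : 0 ≤ 2 * pOne f * (1 - pOne f) := by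
    have : 0 ≤ 1 - pOne f := by linarith [hpp.2]
    have h0 := hpp.1
    positivity
  -- the flow
  have hflow := mg_flow f he hε12 ht hf0
    (fun w => (2 * pOne f * (1 - pOne f) + 2 * M) * Real.log (1 / w) - 8)
    (by
      intro w1 w2 h1 h12
      have h4 : Real.log (1 / w2) ≤ Real.log (1 / w1) := by
        apply Real.log_le_log (one_div_pos.mpr (lt_of_lt_of_le h1 h12))
        exact one_div_le_one_div_of_le h1 h12
      have h5 := mul_le_mul_of_nonneg_left h4 (by positivity :
        0 ≤ 2 * pOne f * (1 - pOne f) + 2 * M)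
      linarith)
    (by
      intro s hs0 hse
      have hs12 : s < 1 / 2 := by linarith
      have h1 := bl_en_flow e f hs0 hs12 ht hf0
      have hpos : 0 < omega f s := omega_pos f hs0 hs12 ht hf0
      have hle1 : omega f s ≤ 1 := mg_omega_le f hs0.le hs12.le
      have hlog : 0 ≤ Real.log (1 / omega f s) := by
        apply Real.log_nonneg
        rw [le_div_iff₀ hpos]
        linarith
      have h2 := mul_le_mul_of_nonneg_right (by linarith :
        2 * pOne f * (1 - pOne f) + 2 * M ≤ 2 * pOne f * (1 - pOne f) + 2 * blCross e f) hlog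
      linarith)
  have hw0 : 0 < omega f ε := omega_pos f he hε12 ht hf0
  have hw1 : omega f ε ≤ 1 := mg_omega_le f he.le hε12.le
  have hkey : Hb ε ≤ omega f ε := by
    by_cases hsmall : omega f ε ≤ Real.exp (-(7 / M))
    · have hlw : 7 / M ≤ Real.log (1 / omega f ε) := by
        have h1 : Real.log (omega f ε) ≤ -(7 / M) := by
          rw [← Real.log_exp (-(7 / M))]
          exact Real.log_le_log hw0 hsmall
        rw [one_div, Real.log_inv]
        linarith
      have hMl : 7 ≤ M * Real.log (1 / omega f ε) := by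
        have := mul_le_mul_of_nonneg_left hlw hM.le
        rwa [mul_div_cancel₀ _ hM.ne'] at this
      have hPsi : Psi (pOne f) (omega f ε)
          ≤ 2 * pOne f * (1 - pOne f) * Real.log (1 / omega f ε) := by
        unfold Psi
        have h3 : Real.log (1 / (2 * Real.exp 1 * omega f ε)) ≤ Real.log (1 / omega f ε) := by
          apply Real.log_le_log (by positivity)
          apply one_div_le_one_div_of_le hw0
          have h1 : (1 : ℝ) ≤ 2 * Real.exp 1 := by
            have := Real.add_one_le_exp (1 : ℝ)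
            linarith
          nlinarith
        have h4 := mul_le_mul_of_nonneg_left h3 ha0
        have h5 : 0 ≤ Hb (pOne f) := Hb_nonneg hpp.1 hpp.2
        linarith
      refine hr _ _ ε hpp.1 hpp.2 (by linarith) he he1l hw0 hw1 ?_
      refine le_trans ?_ hflow
      apply mul_le_mul_of_nonneg_left _ (by linarith)
      have e4 : 4 * M / 4 = M := by ring
      rw [e4]
      have : (2 * pOne f * (1 - pOne f) + 2 * M) * Real.log (1 / omega f ε)
          = 2 * pOne f * (1 - pOne f) * Real.log (1 / omega f ε)
            + 2 * (M * Real.log (1 / omega f ε)) := by ring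
      rw [this]
      linarith
    · rw [not_le] at hsmall
      exact le_trans (hsm ε he he3l) hsmall.le
  have hmi := mi_eq f he.le hε12.le
  have hHp := Vale.Agent.Results.P322.LowNoise.Hb_le_sub (pOne_mem f).1 (pOne_mem f).2
  have : mutualInfo (jointFull f ε) * Real.log 2 ≤ (1 - h2 ε) * Real.log 2 := by
    rw [hmi]
    have e : (1 - h2 ε) * Real.log 2 = Real.log 2 - Hb ε := by
      rw [← hh2e]
      ring
    rw [e]
    nlinarith [sq_nonneg (pOne f - 1 / 2)]
  exact le_of_mul_le_mul_right this hlog2

end Vale.Agent.Results.P322.CrossingCK
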