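import Vale.Agent.Lib.P322Low.Margin
import Vale.Agent.Lib.P322Low.FlowGen
import Vale.Agent.Lib.P322Low.MarginReal
import Vale.Agent.Lib.P322Low.Relabel
import Vale.Agent.Lib.P322Low.NoiseSens
import Vale.Agent.Lib.P322Low.InfLower
import Vale.Agent.Lib.P322Low.Final

open Finset BigOperators

namespace Vale.Agent.Results.P322.MarginCK

open Vale.Agent.Lib.P322 Vale.Agent.Lib.P322Low

/-- Binary Pinsker inequality in nats. -/
lemma Hb_le_sub {p : ℝ} (h0 : 0 ≤ p) (h1 : p ≤ 1) : Hb p ≤ Real.log 2 - 2 * (p - 1 / 2) ^ 2 := by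
  have hhalf : Hb (1 / 2) = Real.log 2 := by
    unfold Hb
    have e : (1 : ℝ) - 1 / 2 = 1 / 2 := by norm_num
    rw [e, one_div, Real.log_inv]
    ring
  rcases h0.eq_or_lt with rfl | h0'
  · have : Hb 0 = 0 := by
      unfold Hb
      simp
    rw [this]
    have : (1.6 : ℝ) / 3 < Real.log 2 := by
      have := Real.log_two_gt_d9
      norm_num at this ⊢
      linarith
    norm_num
    linarith
  rcases h1.eq_or_lt with rfl | h1'
  · have : Hb 1 = 0 := by
      unfold Hb
      simp
    rw [this]
    have : (1.6 : ℝ) / 3 < Real.log 2 := by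
      have := Real.log_two_gt_d9
      norm_num at this ⊢
      linarith
    norm_num
    linarith
  have h := J_ge h0' h1' (by linarith : 0 < 1 - p) (by linarith : 1 - p < 1)
  have e1 : (p + (1 - p)) / 2 = 1 / 2 := by ring
  rw [e1, hhalf, Hb_symm p] at h
  have e2 : (p - (1 - p)) ^ 2 / (8 * (1 / 2) * (1 - 1 / 2)) = 2 * (p - 1 / 2) ^ 2 := by
    ring
  rw [e2] at h
  linarith

/-- Exact Courtade-Kumar at low noise, margin at coordinate `0`. -/
theorem core (M : ℝ) (hM : 0 < M) : ∃ e0 : ℝ, 0 < e0 ∧
    ∀ (n : ℕ) (f : (Fin (n + 1) → Bool) → Bool) (ε : ℝ), 0 < ε → ε < e0 →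
      M ≤ avg (fun y => |ind f true (Fin.cons true y) - ind f true (Fin.cons false y)|)
        - (avg (fun y => ind f true (Fin.cons true y))
            - avg (fun y => ind f true (Fin.cons false y))) ^ 2 →
      mutualInfo (jointFull f ε) ≤ 1 - h2 ε := by
  obtain ⟨e1, he1, he14, hreal⟩ := mg_real M hM
  -- small entropy
  obtain ⟨e2, he2, hsmall⟩ : ∃ e2 : ℝ, 0 < e2 ∧ ∀ x, 0 < x → x < e2 → Hb x ≤ M / 8 := by
    have hc := Metric.continuous_iff.mp continuous_Hb 0 (M / 8) (by positivity)
    obtain ⟨d, hd, h⟩ := hc
    refine ⟨d, hd, fun x hx hxd => ?_⟩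
    have h0 : Hb 0 = 0 := by
      unfold Hb
      simp
    have := h x (by rw [Real.dist_eq, sub_zero, abs_of_pos hx]; exact hxd)
    rw [Real.dist_eq, h0, sub_zero] at this
    exact (le_abs_self _).trans this.le
  refine ⟨min e1 e2, lt_min he1 he2, ?_⟩
  intro n f ε he heps hmar
  have hεe1 : ε < e1 := lt_of_lt_of_le heps (min_le_left _ _)
  have hεe2 : ε < e2 := lt_of_lt_of_le heps (min_le_right _ _)
  have hε12 : ε < 1 / 2 := by linarith
  have hlog2 : 0 < Real.log 2 := Real.log_pos (by norm_num)
  have hp := pOne_mem f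
  have hmi := mi_eq f he.le hε12.le
  have hHe : Hb ε = h2 ε * Real.log 2 := Hb_eq_h2 ε
  -- suffices in nats
  suffices hnat : Hb (pOne f) - omega f ε ≤ Real.log 2 - Hb ε by
    have h3 : mutualInfo (jointFull f ε) * Real.log 2 ≤ (1 - h2 ε) * Real.log 2 := by
      rw [hmi]
      have : (1 - h2 ε) * Real.log 2 = Real.log 2 - Hb ε := by
        rw [hHe]
        ring
      rw [this]
      exact hnat
    exact le_of_mul_le_mul_right h3 hlog2
  have hPin := Hb_le_sub hp.1 hp.2
  have hsm := hsmall ε he hεe2
  by_cases hcase : (pOne f - 1 / 2) ^ 2 ≤ M / 16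
  · -- the margin case
    by_contra hcon
    have hwlt : omega f ε < Hb ε := by
      nlinarith [sq_nonneg (pOne f - 1 / 2)]
    -- nonconstant
    have ht : ∃ x, f x = true := by
      by_contra hc
      have hall : ∀ x, f x = false := fun x => by
        by_contra h
        exact hc ⟨x, by simpa using h⟩
      have h0 : ∀ x, ind f true x = 0 := fun x => by
        unfold ind
        simp [hall]
      have e1 : avg (fun y : Fin n → Bool => |ind f true (Fin.cons true y)
          - ind f true (Fin.cons false y)|) = 0 := by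
        unfold avg
        simp [h0]
      have e2 : avg (fun y : Fin n → Bool => ind f true (Fin.cons true y))
          - avg (fun y : Fin n → Bool => ind f true (Fin.cons false y)) = 0 := by
        unfold avg
        simp [h0]
      rw [e1, e2] at hmar
      norm_num at hmar
      linarith
    have hf : ∃ x, f x = false := by
      by_contra hc
      have hall : ∀ x, f x = true := fun x => by
        by_contra h
        exact hc ⟨x, by simpa using h⟩
      have h0 : ∀ x, ind f true x = 1 := fun x => by
        unfold ind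
        simp [hall]
      have e1 : avg (fun y : Fin n → Bool => |ind f true (Fin.cons true y)
          - ind f true (Fin.cons false y)|) = 0 := by
        unfold avg
        simp [h0]
      have e2 : avg (fun y : Fin n → Bool => ind f true (Fin.cons true y))
          - avg (fun y : Fin n → Bool => ind f true (Fin.cons false y)) = 0 := by
        unfold avg
        simp [h0]
      rw [e1, e2] at hmar
      norm_num at hmar
      linarith
    set G : ℝ → ℝ := fun w => Psi (pOne f) w + (M / 4) * Real.log (1 / w) - 1 with hGdef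
    have hG : ∀ w1 w2, 0 < w1 → w1 ≤ w2 → G w2 ≤ G w1 := by
      intro w1 w2 h1 h12
      have a1 := Psi_anti hp.1 hp.2 h1 h12
      have h2 : 0 < w2 := lt_of_lt_of_le h1 h12
      have a2 : Real.log (1 / w2) ≤ Real.log (1 / w1) := by
        apply Real.log_le_log (by positivity)
        exact one_div_le_one_div_of_le h1 h12
      have a3 : (M / 4) * Real.log (1 / w2) ≤ (M / 4) * Real.log (1 / w1) :=
        mul_le_mul_of_nonneg_left a2 (by positivity)
      simp only [hGdef]
      linarith
    have hEn : ∀ s, 0 < s → s < ε → G (omega f s) ≤ En (noise s (ind f true)) := by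
      intro s hs0 hsε
      have hs12 : s < 1 / 2 := by linarith
      have hu : ∀ y, 0 < noise s (ind f true) y ∧ noise s (ind f true) y < 1 := fun y =>
        ⟨noise_ind_pos f hs0 hs12 true ht y, noise_ind_lt_one f hs0 hs12 hf y⟩
      have hm := mg_margin_K (noise s (ind f true)) hu
      have ea : avg (noise s (ind f true)) = pOne f := by
        rw [avg_noise, avg_ind_true]
      have ew : avg (fun y => Hb (noise s (ind f true) y)) = omega f s := rfl
      rw [ea, ew, mg_delta_noise f s] at hm
      set d := avg (fun y => ind f true (Fin.cons true y))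
        - avg (fun y => ind f true (Fin.cons false y)) with hd
      have hw0 : 0 < omega f s := omega_pos_of (fun u h0 h1 => Hb_pos h0 h1) f hs0 hs12 ht hf
      have hw1 : omega f s ≤ 1 := mg_omega_le f hs0.le hs12.le
      have hlog0 : 0 ≤ Real.log (1 / omega f s) := by
        apply Real.log_nonneg
        rw [le_div_iff₀ hw0]
        linarith
      have hK := mg_K_lower f s
      obtain ⟨s', hs'0, hs's, hns⟩ := mg_ns f hs0.le hs12.le
      have hmono := mg_omega_mono f ht hf hs'0 (hs's.trans hsε.le) hε12
      have hd2 : ((1 - 2 * s) * d) ^ 2 ≤ d ^ 2 := by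
        rw [mul_pow]
        have h1 : (1 - 2 * s) ^ 2 ≤ 1 := by nlinarith
        have h2 : 0 ≤ d ^ 2 := sq_nonneg d
        nlinarith
      have hc : (M / 4) * Real.log (1 / omega f s)
          ≤ (avg (fun y => |noise s (ind f true) (Fin.cons true y)
                - noise s (ind f true) (Fin.cons false y)|) - ((1 - 2 * s) * d) ^ 2) / 2
            * Real.log (1 / omega f s) := by
        apply mul_le_mul_of_nonneg_right _ hlog0
        linarith
      simp only [hGdef]
      linarith
    have hfl := mg_flow f he hε12 ht hf G hG hEn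
    have hw0 : 0 < omega f ε := omega_pos_of (fun u h0 h1 => Hb_pos h0 h1) f he hε12 ht hf
    have hw1 : omega f ε ≤ 1 := mg_omega_le f he.le hε12.le
    have hfin := hreal (pOne f) (omega f ε) ε hp.1 hp.2 hcase he hεe1 hw0 hw1 hfl
    linarith
  · -- far from balance: Pinsker
    rw [not_le] at hcase
    have hw := omega_nonneg f he.le hε12.le
    nlinarith

/-- Exact Courtade-Kumar inequality at low noise, uniformly in the dimension, for every Boolean
function having a coordinate `i` with `Inf_i(f) - (2 * Fhat f {i}) ^ 2 ≥ M`, where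
`Inf_i(f) = Pr[f(x) ≠ f(x with bit i flipped)]` and `2 * Fhat f {i}`, which is
`Pr[f = 1 | x i = 1] - Pr[f = 1 | x i = 0]`, is the level-one Fourier coefficient. -/
theorem result (M : ℝ) (hM : 0 < M) : ∃ e0 : ℝ, 0 < e0 ∧
    ∀ (n : ℕ) (f : (Fin n → Bool) → Bool) (i : Fin n) (ε : ℝ), 0 < ε → ε < e0 →
      M ≤ avg (fun x => |ind f true x - ind f true (flip x i)|) - (2 * Fhat f {i}) ^ 2 →
      mutualInfo (jointFull f ε) ≤ 1 - h2 ε := by
  obtain ⟨e0, h0, hc⟩ := core M hM
  refine ⟨min e0 (1 / 4), lt_min h0 (by norm_num), ?_⟩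
  intro n f i ε he heps hmar
  have he0 : ε < e0 := lt_of_lt_of_le heps (min_le_left _ _)
  have he4 : ε < 1 / 4 := lt_of_lt_of_le heps (min_le_right _ _)
  cases n with
  | zero => exact i.elim0
  | succ m =>
    have hlog2 : 0 < Real.log 2 := Real.log_pos (by norm_num)
    set f' : (Fin (m + 1) → Bool) → Bool := fun x => f (x ∘ Equiv.swap 0 i) with hf'
    have hd := mg_delta_fhat f i
    have hi := mg_inf_relabel f i
    have h := hc m f' ε he he0 (by
      rw [hf', hd, hi]
      exact hmar)
    have e1 := mi_eq f he.le (by linarith)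
    have e2 := mi_eq f' he.le (by linarith)
    rw [hf', mg_omega_relabel f i ε, mg_pOne_relabel f i] at e2
    have e3 : mutualInfo (jointFull f ε) * Real.log 2 = mutualInfo (jointFull f' ε) * Real.log 2 := by
      rw [e1, hf', e2]
    have e4 : mutualInfo (jointFull f ε) = mutualInfo (jointFull f' ε) :=
      mul_right_cancel₀ hlog2.ne' e3
    rw [e4]
    exact h

end Vale.Agent.Results.P322.MarginCK
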