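import Vale.Agent.Results.P322.CrossingCK
import Vale.Agent.Results.P322.MarginCK
import Vale.Agent.Lib.P322Low.Chain
import Vale.Agent.Lib.P322Low.TwoBlock
import Vale.Agent.Lib.P322Low.NearFinal

open Finset BigOperators

namespace Vale.Agent.Results.P322.FullLowNoise

open Vale.Agent.Lib.P322 Vale.Agent.Lib.P322Low Vale.Agent.Lib.P322Low.NearDict

lemma ind_le_one {n : ℕ} (f : (Fin n → Bool) → Bool) (x : Fin n → Bool) : ind f true x ≤ 1 := by
  unfold ind
  split_ifs <;> norm_num

lemma avg_mono2 {k : ℕ} {g h : (Fin k → Bool) → ℝ} (hgh : ∀ y, g y ≤ h y) : avg g ≤ avg h := by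
  unfold avg
  apply div_le_div_of_nonneg_right _ (by positivity)
  exact Finset.sum_le_sum fun y _ => hgh y

lemma avg_sub2 {k : ℕ} (g h : (Fin k → Bool) → ℝ) : avg g - avg h = avg (fun y => g y - h y) := by
  unfold avg
  rw [← sub_div, Finset.sum_sub_distrib]

lemma abs_avg_sub {k : ℕ} (g h : (Fin k → Bool) → ℝ) :
    |avg g - avg h| ≤ avg (fun y => |g y - h y|) := by
  rw [avg_sub2, abs_le]
  constructor
  · have := avg_mono2 (g := fun y => -|g y - h y|) (h := fun y => g y - h y)
      (fun y => neg_abs_le _)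
    have e : avg (fun y => -|g y - h y|) = -avg (fun y => |g y - h y|) := by
      unfold avg
      rw [Finset.sum_neg_distrib, neg_div]
    linarith
  · exact avg_mono2 (fun y => le_abs_self _)


lemma small_inf {t c : ℝ} (ht0 : 0 ≤ t) (ht1 : t ≤ 1) (hc2 : c ^ 2 ≤ t ^ 2)
    (hi1 : t - c ^ 2 < 1 / 1000) (hi2 : c ^ 2 ≤ 1 - 3 / 1000) : t ≤ 2 / 1000 := by
  by_contra hcon
  rw [not_le] at hcon
  have h6 : t * (1 - t) < 1 / 1000 := by nlinarith
  have h7 : 1 / 2 < t := by
    by_contra h8
    rw [not_lt] at h8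
    nlinarith
  have h9 : 1 - t < 2 / 1000 := by nlinarith
  nlinarith

lemma tb_contra {p A B C : ℝ} (h : 4 * A * B ≤ 17 * C) (hCr : C = p * (1 - p) - A - B)
    (hC : C < 1 / 1000) (hA1 : 1 / 16 ≤ A) (hA2 : A ≤ 1 / 16 + 2 / 1000)
    (hfar : (p - 1 / 2) ^ 2 < 1 / 100) : False := by
  have hB : 1 / 8 ≤ B := by nlinarith
  have hAB : (1 : ℝ) / 32 ≤ 4 * A * B := by nlinarith
  nlinarith

lemma dict_pos {a b : ℝ} (ha1 : a ≤ 1) (hb0 : 0 ≤ b) (hs : 0 ≤ a - b)
    (hi : 1 - 3 / 1000 < (a - b) ^ 2) : b ≤ 1 / 4 ∧ 1 - a ≤ 1 / 4 := by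
  constructor <;> nlinarith

lemma dict_neg {a b : ℝ} (ha0 : 0 ≤ a) (hb1 : b ≤ 1) (hs : a - b < 0)
    (hi : 1 - 3 / 1000 < (a - b) ^ 2) : 1 - b ≤ 1 / 4 ∧ 1 - (1 - a) ≤ 1 / 4 := by
  constructor <;> nlinarith

/-- The exact Courtade-Kumar inequality for all Boolean functions at all noise levels below an
absolute constant, uniformly in the dimension. -/
theorem result : ∃ e0 : ℝ, 0 < e0 ∧
    ∀ (n : ℕ) (f : (Fin n → Bool) → Bool) (ε : ℝ), 0 < ε → ε < e0 →
      mutualInfo (jointFull f ε) ≤ 1 - h2 ε := by
  obtain ⟨e1, he1, hcross⟩ := Vale.Agent.Results.P322.CrossingCK.result (1 / 1000) (by norm_num)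
  obtain ⟨e2, he2, hmargin⟩ := Vale.Agent.Results.P322.MarginCK.result (1 / 1000) (by norm_num)
  obtain ⟨e3, he3, hnear⟩ := near_dictator (1 / 4) (by norm_num)
  obtain ⟨e4, he4, hsm⟩ := Vale.Agent.Results.P322.CrossingCK.Hb_small (1 / 50) (by norm_num)
  refine ⟨min e1 (min e2 (min e3 (min e4 (1 / 4)))),
    lt_min he1 (lt_min he2 (lt_min he3 (lt_min he4 (by norm_num)))), ?_⟩
  intro n f ε he heps
  have h1 : ε < e1 := lt_of_lt_of_le heps (min_le_left _ _)
  have h2' : ε < e2 := lt_of_lt_of_le heps ((min_le_right _ _).trans (min_le_left _ _))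
  have h3 : ε < e3 := lt_of_lt_of_le heps
    ((min_le_right _ _).trans ((min_le_right _ _).trans (min_le_left _ _)))
  have h4 : ε < e4 := lt_of_lt_of_le heps
    ((min_le_right _ _).trans ((min_le_right _ _).trans ((min_le_right _ _).trans (min_le_left _ _))))
  have h5 : ε < 1 / 4 := lt_of_lt_of_le heps
    ((min_le_right _ _).trans ((min_le_right _ _).trans ((min_le_right _ _).trans (min_le_right _ _))))
  have h12 : ε < 1 / 2 := by linarith
  have hp := pOne_mem f
  -- case (i): far from balanced
  by_cases hfar : 1 / 100 ≤ (pOne f - 1 / 2) ^ 2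
  · have hlog2 : 0 < Real.log 2 := Real.log_pos (by norm_num)
    have hmi := mi_eq f he.le h12.le
    have hPin := Vale.Agent.Results.P322.MarginCK.Hb_le_sub hp.1 hp.2
    have hw := omega_nonneg f he.le h12.le
    have hs := hsm ε he h4
    have hHe : Hb ε = h2 ε * Real.log 2 := Hb_eq_h2 ε
    have h3' : mutualInfo (jointFull f ε) * Real.log 2 ≤ (1 - h2 ε) * Real.log 2 := by
      rw [hmi]
      nlinarith
    exact le_of_mul_le_mul_right h3' hlog2
  rw [not_le] at hfar
  -- case (ii): some coordinate with margin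
  by_cases hmar : ∃ i, 1 / 1000 ≤ avg (fun x => |ind f true x - ind f true (flip x i)|)
      - (2 * Fhat f {i}) ^ 2
  · obtain ⟨i, hi⟩ := hmar
    exact hmargin n f i ε he h2' hi
  push Not at hmar
  -- case (iii): near dictator
  by_cases hdict : ∃ i, 1 - 3 / 1000 < (2 * Fhat f {i}) ^ 2
  · obtain ⟨i, hi⟩ := hdict
    cases n with
    | zero => exact i.elim0
    | succ m =>
      apply ck_of_omega f he h12
      have hd := mg_delta_fhat f i
      set f' : (Fin (m + 1) → Bool) → Bool := fun x => f (x ∘ Equiv.swap 0 i) with hf'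
      rw [← hd] at hi
      rw [← mg_omega_relabel f i ε]
      set a := avg (fun y : Fin m → Bool => ind f' true (Fin.cons true y)) with ha
      set b := avg (fun y : Fin m → Bool => ind f' true (Fin.cons false y)) with hb
      have ea : pOne (fun x => f' (Fin.cons true x)) = a := by
        rw [← avg_ind_true]
        rfl
      have eb : pOne (fun x => f' (Fin.cons false x)) = b := by
        rw [← avg_ind_true]
        rfl
      have ha0 : 0 ≤ a := avg_nonneg fun y => ind_nonneg f' true _
      have hb0 : 0 ≤ b := avg_nonneg fun y => ind_nonneg f' true _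
      have hc1 : ∀ {k : ℕ} (c : ℝ), avg (fun _ : Fin k → Bool => c) = c := by
        intro k c
        exact avg_const' c
      have ha1 : a ≤ 1 := by
        have := avg_mono2 (g := fun y : Fin m → Bool => ind f' true (Fin.cons true y))
          (h := fun _ => (1 : ℝ)) (fun y => ind_le_one f' _)
        rwa [hc1] at this
      have hb1 : b ≤ 1 := by
        have := avg_mono2 (g := fun y : Fin m → Bool => ind f' true (Fin.cons false y))
          (h := fun _ => (1 : ℝ)) (fun y => ind_le_one f' _)
        rwa [hc1] at this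
      by_cases hsign : 0 ≤ a - b
      · apply hnear m f' ε he h3
        · rw [eb]
          exact (dict_pos ha1 hb0 hsign hi).1
        · rw [ea]
          exact (dict_pos ha1 hb0 hsign hi).2
      · rw [not_le] at hsign
        rw [← omega_not f' ε]
        apply hnear m (fun x => !f' x) ε he h3
        · rw [pOne_not, eb]
          exact (dict_neg ha0 hb1 hsign hi).1
        · rw [pOne_not, ea]
          exact (dict_neg ha0 hb1 hsign hi).2
  push Not at hdict
  -- case (iv): all influences small
  have hInf : ∀ i, avg (fun x => |ind f true x - ind f true (flip x i)|) ≤ 2 / 1000 := by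
    intro i
    have hi1 := hmar i
    have hi2 := hdict i
    have hcoord : |2 * Fhat f {i}| ≤ avg (fun x => |ind f true x - ind f true (flip x i)|) := by
      cases n with
      | zero => exact i.elim0
      | succ m =>
        rw [← mg_delta_fhat f i, ← mg_inf_relabel f i]
        exact abs_avg_sub _ _
    set t := avg (fun x => |ind f true x - ind f true (flip x i)|) with ht
    have ht0 : 0 ≤ t := avg_nonneg fun x => abs_nonneg _
    have ht1 : t ≤ 1 := by
      have := avg_mono2 (g := fun x => |ind f true x - ind f true (flip x i)|)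
        (h := fun _ => (1 : ℝ)) (fun x => by
          rw [abs_le]
          have a1 := ind_nonneg f true x
          have a2 := ind_le_one f x
          have a3 := ind_nonneg f true (flip x i)
          have a4 := ind_le_one f (flip x i)
          constructor <;> linarith)
      rwa [avg_const'] at this
    set c := 2 * Fhat f {i} with hc
    have hc2 : c ^ 2 ≤ t ^ 2 := by
      rw [← sq_abs c]
      exact pow_le_pow_left₀ (abs_nonneg _) hcoord 2
    exact small_inf ht0 ht1 hc2 hi1 (by linarith [hi2])
  have hpv : (1 : ℝ) / 16 ≤ pOne f * (1 - pOne f) := by nlinarith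
  obtain ⟨m, l, e, hA1, hA2⟩ := ch_exists f (2 / 1000) hInf hpv
  by_cases hc : 1 / 1000 ≤ blCross e f
  · exact hcross m l n e f ε he h1 hc
  rw [not_le] at hc
  exfalso
  have hTB := tb_two_block e f
  set A := avg (fun u : Fin m → Bool => (avg fun v : Fin l → Bool => ind f true (blGlue e u v)) ^ 2)
    - pOne f ^ 2 with hAdef
  set B := avg (fun v : Fin l → Bool => (avg fun u : Fin m → Bool => ind f true (blGlue e u v)) ^ 2)
    - pOne f ^ 2 with hBdef
  have eP : avg (fun u : Fin m → Bool => avg fun v : Fin l → Bool => ind f true (blGlue e u v))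
      = pOne f := by
    rw [← bl_avg e, avg_ind_true]
  have eQ : avg (fun v : Fin l → Bool => avg fun u : Fin m → Bool => ind f true (blGlue e u v))
      = pOne f := by
    rw [← bl_avg' e, avg_ind_true]
  have hsplit : ∀ {k : ℕ} (P : (Fin k → Bool) → ℝ),
      avg (fun u => P u * (1 - P u)) = avg P - avg (fun u => P u ^ 2) := by
    intro k P
    rw [avg_sub2]
    congr 1
    funext u
    ring
  have hCr : blCross e f = pOne f * (1 - pOne f) - A - B := by
    unfold blCross
    rw [hsplit, hsplit, eP, eQ, hAdef, hBdef]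
    ring
  exact tb_contra hTB hCr hc hA1 hA2 hfar

end Vale.Agent.Results.P322.FullLowNoise
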