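import Vale.Agent.Lib.P322Low.NearFinal

open Finset BigOperators

namespace Vale.Agent.Results.P322.NearDictator

open Vale.Agent.Lib.P322 Vale.Agent.Lib.P322Low

/-- The exact Courtade-Kumar inequality near a dictator, at low noise, uniformly in the dimension.
Write `f0 x = f (cons false x)`, `f1 x = f (cons true x)` for the restrictions of `f` to the two values
of the first coordinate; `pOne f0 = Pr[f = 1 | x₀ = 0]` and `1 - pOne f1 = Pr[f = 0 | x₀ = 1]`.
For balanced `f`, `pOne f1 - pOne f0` is the degree-one Fourier coefficient of `f` at the first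
coordinate. -/
theorem result :
    (∀ α₁ : ℝ, α₁ < 1 / 2 → ∃ ε₀ : ℝ, 0 < ε₀ ∧
      ∀ (n : ℕ) (f : (Fin (n + 1) → Bool) → Bool) (ε : ℝ), 0 < ε → ε < ε₀ →
        pOne (fun x => f (Fin.cons false x)) ≤ α₁ →
        1 - pOne (fun x => f (Fin.cons true x)) ≤ α₁ →
        mutualInfo (jointFull f ε) ≤ 1 - h2 ε) ∧
    (∀ lo : ℝ, 0 < lo → ∃ ε₀ : ℝ, 0 < ε₀ ∧
      ∀ (n : ℕ) (f : (Fin (n + 1) → Bool) → Bool) (ε : ℝ), 0 < ε → ε < ε₀ →
        pOne f = 1 / 2 →
        lo ≤ |pOne (fun x => f (Fin.cons true x)) - pOne (fun x => f (Fin.cons false x))| →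
        mutualInfo (jointFull f ε) ≤ 1 - h2 ε) := by
  refine ⟨?_, ?_⟩
  · intro α₁ hα₁
    obtain ⟨ε₀, h0, h⟩ := NearDict.near_dictator α₁ hα₁
    refine ⟨min ε₀ (1 / 2), lt_min h0 (by norm_num), ?_⟩
    intro n f ε he0 he1 hp0 hp1
    have he2 : ε < ε₀ := lt_of_lt_of_le he1 (min_le_left _ _)
    have he3 : ε < 1 / 2 := lt_of_lt_of_le he1 (min_le_right _ _)
    exact NearDict.ck_of_omega f he0 he3 (h n f ε he0 he2 hp0 hp1)
  · intro lo hlo
    obtain ⟨ε₀, h0, h⟩ := NearDict.near_dictator ((1 - lo) / 2) (by linarith)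
    refine ⟨min ε₀ (1 / 2), lt_min h0 (by norm_num), ?_⟩
    intro n f ε he0 he1 hbal hc
    have he2 : ε < ε₀ := lt_of_lt_of_le he1 (min_le_left _ _)
    have he3 : ε < 1 / 2 := lt_of_lt_of_le he1 (min_le_right _ _)
    have hs := NearDict.pOne_split f
    rw [hbal] at hs
    apply NearDict.ck_of_omega f he0 he3
    rcases le_abs.mp hc with hc | hc
    · exact h n f ε he0 he2 (by linarith) (by linarith)
    · have hn := h n (fun x => !f x) ε he0 he2
      rw [NearDict.omega_not] at hn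
      apply hn
      · rw [NearDict.pOne_not]
        linarith
      · rw [NearDict.pOne_not]
        linarith

end Vale.Agent.Results.P322.NearDictator
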