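import Vale.Agent.Lib.P322.Pair

open Finset BigOperators

namespace Vale.Agent.Results.P322.UnbalancedRegion

open Vale.Agent.Lib.P322

/-- Courtade-Kumar for all Boolean `f` outside a bounded window of `Pr[f = 1]`, coordinatewise
version for all Boolean `f`, and matching-block strengthening for balanced `f`. -/
theorem result {n : ℕ} (f : (Fin n → Bool) → Bool) (ε : ℝ) (h0 : 0 ≤ ε) (h1 : ε ≤ 1 / 2) :
    mutualInfo (jointFull f ε) ≤ (1 - 2 * ε) ^ 2 * h2 (pOne f) ∧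
    (h2 (pOne f) ≤ 1 / (2 * Real.log 2) → mutualInfo (jointFull f ε) ≤ 1 - h2 ε) ∧
    ((1 - 2 * ε) ^ 2 * h2 (pOne f) ≤ 1 - h2 ε → mutualInfo (jointFull f ε) ≤ 1 - h2 ε) ∧
    ∑ i, mutualInfo (jointCoord f ε i) ≤ 1 - h2 ε ∧
    (pOne f = 1 / 2 → ∀ (m : ℕ) (a b : Fin m → Fin n), Function.Injective (Sum.elim a b) →
      ∑ k, mutualInfo (jointPair f ε (a k) (b k)) ≤ 1 - h2 ε) :=
  ⟨mi_full_le f h0 h1, fun hp => ck_of_entropy_small f h0 h1 hp,
    fun hp => (mi_full_le f h0 h1).trans hp, coord_sum_le f h0 h1,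
    fun hp _ a b hab => pair_sum_le f hp h0 h1 a b hab⟩

end Vale.Agent.Results.P322.UnbalancedRegion
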